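import Vale.Agent.N045.Cert

/-!
Explicit values of `r` for which Ryser's inequality fails, with small hypergraphs.
-/

namespace Vale.Agent.Results.P045.A0Explicit

section

variable {r : ℕ} {V : Type}

/-- `E` is the set of edges of an `r`-partite `r`-uniform hypergraph with vertex set `V` and with
the parts `{v | part v = i}`: every edge has exactly one vertex in every part. -/
def Partite (part : V → Fin r) (E : Finset (Finset V)) : Prop :=
  ∀ e ∈ E, ∀ i : Fin r, ∃! v, v ∈ e ∧ part v = i

/-- There is at least one edge, and every two edges share a vertex. -/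
def Intersecting (E : Finset (Finset V)) : Prop :=
  E.Nonempty ∧ ∀ e ∈ E, ∀ f ∈ E, ¬ Disjoint e f

/-- `τ` is the least size of a set of vertices which meets every edge. -/
def CoveringNumber (E : Finset (Finset V)) (τ : ℕ) : Prop :=
  IsLeast {k | ∃ C : Finset V, (∀ e ∈ E, ∃ v ∈ e, v ∈ C) ∧ C.card = k} τ

/-- `ν` is the greatest number of pairwise disjoint edges. -/
def MatchingNumber (E : Finset (Finset V)) (ν : ℕ) : Prop :=
  IsGreatest {k | ∃ M : Finset (Finset V), M ⊆ E ∧ (M : Set (Finset V)).Pairwise Disjoint ∧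
    M.card = k} ν

end

/-- Explicit values of `r` for which Ryser's inequality `τ ≤ (r - 1) ν` fails, with a bound `m`
for the number of edges: `τ = r` for an intersecting hypergraph, and `τ = r ν` for every `ν`. -/
theorem result (r m : ℕ)
    (hr : (r = 205674 ∧ m = 59 ^ 6) ∨
      (∃ q h : ℕ, IsPrimePow q ∧ Odd q ∧ 59 ≤ q ∧ 3 ≤ h ∧ Nat.Coprime h (q - 1) ∧
        r = q ^ h + 5 * q ∧ m = q ^ (2 * h)) ∨
      (10 ^ 150 ≤ r ∧ m = 2 ^ (r / 10 ^ 10))) :
    (∃ (V : Type) (_ : Fintype V) (part : V → Fin r) (E : Finset (Finset V)),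
      Partite part E ∧ Intersecting E ∧ CoveringNumber E r ∧ E.card ≤ m) ∧
    ∀ ν : ℕ, ∃ (V : Type) (_ : Fintype V) (part : V → Fin r) (E : Finset (Finset V)),
      Partite part E ∧ MatchingNumber E ν ∧ CoveringNumber E (r * ν) ∧ E.card ≤ ν * m := by
  rcases hr with ⟨rfl, rfl⟩ | ⟨q, h, h1, h2, h3, h4, h5, rfl, rfl⟩ | ⟨h1, rfl⟩
  · exact Vale.Agent.N045.both_of_sd (by norm_num) Vale.Agent.N045.sd_small
  · exact Vale.Agent.N045.both_of_sd (by omega) (Vale.Agent.N045.sd_family h1 h2 h3 h4 h5)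
  · exact Vale.Agent.N045.both_of_sd (lt_of_lt_of_le (by norm_num) h1)
      (Vale.Agent.N045.sd_all r h1)

end Vale.Agent.Results.P045.A0Explicit
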